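import Vale.Agent.P154.StageG

/-! Finite grid upgrade of the density evolution on the `4`-ary tree: definitions. -/

open scoped BigOperators

namespace Vale.Agent.P154.Grid

/-- table of orbit numbers, eight bits per grid point -/
def lutN : ℕ := 
  0x10100000000000000000000000000000000000000000000000000020e02000000000000000000000000000000000000000000000000030f0f03000000000000000000000000000000000000000000000004101b10040000000000000000000000000000000000000000000005111c1c110500000000000000000000000000000000000000000006121d261d1206000000000000000000000000000000000000000007131e27271e13070000000000000000000000000000000000000008141f2830281f14080000000000000000000000000000000000000915202931312920150900000000000000000000000000000000000a16212a3238322a21160a000000000000000000000000000000000b17222b333939332b22170b0000000000000000000000000000000c18232c343a3f3a342c23180c00000000000000000000000000000d19242d353b40403b352d24190d000000000000000000000000000d1a252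e363c4144413c362e251a0d0000000000000000000000000c19252f373d424545423d372f25190c00000000000000000000000b18242e373e43464846433e372e24180b000000000000000000000a17232d363d4347494947433d362d23170a0000000000000000000916222c353c4246494a4946423c352c22160900000000000000000815212b343b41454849494845413b342b211508000000000000000714202a333a4044454647464544403a332a20140700000000000006131f2932393f40414243434241403f3932291f1306000000000005121e283138393a3b3c3d3e3d3c3b3a393831281e12050000000004111d2730313233343536373736353433323130271d110400000003101c262728292a2b2c2d2e2f2e2d2c2b2a292827261c10030000020f1b1c1d1e1f2021222324252524232221201f1e1d1c1b0f0200010e0f101112131415161718191a191817161514131211100f0e01000102030405060708090a0b0c0d0d0c0b0a09080706050403020100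

/-- number of the orbit of the grid point `(i, j, 27 - i - j)` -/
def lut (i j : ℕ) : ℕ :=
  Nat.mod (Nat.shiftRight lutN (Nat.mul 8 (Nat.add (Nat.mul 28 i) j))) 256

/-- weight `w` at the grid point `(i, j, 27 - i - j)` -/
def sg (w i j : ℕ) : ℕ := Nat.shiftLeft w (Nat.mul 56 (lut i j))

def vtC (Y a0 a1 f0 f1 f2 s : ℕ) : ℕ :=
  cond (Nat.beq s 0) (sg Y a0 a1)
    (cond (Nat.beq s 1)
      (Nat.add (sg f0 (Nat.add a0 1) a1) (Nat.add (sg f1 a0 (Nat.add a1 1)) (sg f2 a0 a1)))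
      (Nat.add (sg (Nat.sub Y f0) a0 (Nat.add a1 1))
        (Nat.add (sg (Nat.sub Y f1) (Nat.add a0 1) a1)
          (sg (Nat.sub Y f2) (Nat.add a0 1) (Nat.add a1 1)))))

def vtB (Y y0 y1 y2 : ℕ) : ℕ :=
  vtC Y (Nat.div y0 Y) (Nat.div y1 Y) (Nat.mod y0 Y) (Nat.mod y1 Y) (Nat.mod y2 Y)
    (Nat.sub (Nat.sub (Nat.sub 27 (Nat.div y0 Y)) (Nat.div y1 Y)) (Nat.div y2 Y))

def vtA (y0 y1 y2 Y : ℕ) : ℕ :=
  cond (Nat.beq Y 0) 0 (vtB Y (Nat.mul 27 y0) (Nat.mul 27 y1) (Nat.mul 27 y2))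

/-- vertices of the grid triangle containing `(y0, y1, y2)`, with weights -/
def vt (y0 y1 y2 : ℕ) : ℕ := vtA y0 y1 y2 (Nat.add (Nat.add y0 y1) y2)

/-- all products of `x` with the permutations of `z` -/
def ent (x0 x1 x2 z0 z1 z2 : ℕ) : ℕ :=
  Nat.add (vt (Nat.mul x0 z0) (Nat.mul x1 z1) (Nat.mul x2 z2))
    (Nat.add (vt (Nat.mul x0 z1) (Nat.mul x1 z2) (Nat.mul x2 z0))
    (Nat.add (vt (Nat.mul x0 z2) (Nat.mul x1 z0) (Nat.mul x2 z1))
    (Nat.add (vt (Nat.mul x0 z0) (Nat.mul x1 z2) (Nat.mul x2 z1))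
    (Nat.add (vt (Nat.mul x0 z2) (Nat.mul x1 z1) (Nat.mul x2 z0))
      (vt (Nat.mul x0 z1) (Nat.mul x1 z0) (Nat.mul x2 z2))))))

def entA (p q : ℕ) : ℕ :=
  ent (27 - p / 28) (27 - p % 28) (p / 28 + p % 28) (27 - q / 28) (27 - q % 28) (q / 28 + q % 28)

def entB (p q : ℕ) : ℕ :=
  ent (p / 28) (p % 28) (27 - p / 28 - p % 28) (q / 28) (q % 28) (27 - q / 28 - q % 28)

noncomputable def mrow (E : ℕ → ℕ → ℕ) (p : ℕ) (l : List ℕ) : List ℕ :=
  @List.rec ℕ (fun _ => List ℕ) [] (fun q _ ih => List.cons (Nat.mul 2 (E p q)) ih) l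

noncomputable def rows (E : ℕ → ℕ → ℕ) (l : List ℕ) : List (List ℕ) :=
  @List.rec ℕ (fun _ => List (List ℕ)) []
    (fun p ps ih => List.cons (List.cons (E p p) (mrow E p ps)) ih) l

noncomputable def rdot (l : List ℕ) (C : ℕ) : ℕ :=
  @List.rec ℕ (fun _ => ℕ → ℕ) (fun _ => 0)
    (fun e _ ih C => Nat.add (Nat.mul (Nat.mod C 1048576) e) (ih (Nat.div C 1048576))) l C

noncomputable def bil (l : List (List ℕ)) (C : ℕ) : ℕ :=
  @List.rec (List ℕ) (fun _ => ℕ → ℕ) (fun _ => 0)
    (fun r _ ih C => Nat.add (Nat.mul (Nat.mod C 1048576) (rdot r C)) (ih (Nat.div C 1048576)))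
    l C

/-- codes `28 * i + j` of the orbit representatives `(i, j, 27 - i - j)` -/
def reps : List ℕ :=
    [756, 729, 702, 675, 648, 621, 594, 567, 540, 513, 486, 459, 432, 405, 701, 674, 647,
    620, 593, 566, 539, 512, 485, 458, 431, 404, 377, 646, 619, 592, 565, 538, 511, 484,
    457, 430, 403, 376, 591, 564, 537, 510, 483, 456, 429, 402, 375, 348, 536, 509, 482,
    455, 428, 401, 374, 347, 481, 454, 427, 400, 373, 346, 319, 426, 399, 372, 345, 318,
    371, 344, 317, 290, 316, 289, 261]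

noncomputable def tabA : List (List ℕ) := rows entA reps
noncomputable def tabB : List (List ℕ) := rows entB reps

/-- `M * digit C t ≤ digit V t` for all `t < n` -/
noncomputable def chk (M : ℕ) (n : ℕ) (V C : ℕ) : Bool :=
  @Nat.rec (fun _ => ℕ → ℕ → Bool) (fun _ _ => true)
    (fun _ ih V C => and (Nat.ble (Nat.mul M (Nat.mod C 1048576)) (Nat.mod V 72057594037927936))
      (ih (Nat.div V 72057594037927936) (Nat.div C 1048576))) n V C

/-- sum of the first `n` digits -/
noncomputable def dsum (n : ℕ) (C : ℕ) : ℕ :=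
  @Nat.rec (fun _ => ℕ → ℕ) (fun _ => 0)
    (fun _ ih C => Nat.add (Nat.mod C 1048576) (ih (Nat.div C 1048576))) n C

noncomputable def ok1 (V M : ℕ) (C : ℕ) : Bool :=
  and (Nat.beq (dsum 75 C) 1000000)
    (chk M 74 (Nat.div V 72057594037927936) (Nat.div C 1048576))

/-- one level: `C` is upgraded to `A` (two children) and to `C'` (four children) -/
noncomputable def run1 (C A C' : ℕ) : Bool :=
  and (ok1 (bil tabA C) 5832000000 A) (ok1 (bil tabB A) 1458000000 C')

/-- a list of levels, ending in the state `L` -/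
noncomputable def run (l : List (ℕ × ℕ)) (C L : ℕ) : Bool :=
  @List.rec (ℕ × ℕ) (fun _ => ℕ → Bool) (fun C => Nat.beq C L)
    (fun p _ ih C => and (run1 C p.1 p.2) (ih p.2)) l C

/-! ### mathematical side -/

/-- digit of the packed state -/
def dg (C t : ℕ) : ℕ := C / 1048576 ^ t % 1048576

/-- code of the orbit representative number `t` -/
def rc (t : ℕ) : ℕ := reps.getD t 0

/-- symmetrized value at the grid point with code `p` -/
noncomputable def S6 (F : ℝ → ℝ → ℝ → ℝ) (p : ℕ) : ℝ :=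
  six F ((p / 28 : ℕ) : ℝ) ((p % 28 : ℕ) : ℝ) ((27 - p / 28 - p % 28 : ℕ) : ℝ)

/-- value of the packed state `C` (digits add up to `10 ^ 6`) -/
noncomputable def Q1 (C : ℕ) (F : ℝ → ℝ → ℝ → ℝ) : ℝ :=
  ∑ t ∈ Finset.range 75, (dg C t : ℝ) * S6 F (rc t)

/-- the functional `X` is bounded by the packed weights `E`, of total `K` -/
def Rp (E K : ℕ) (X : (ℝ → ℝ → ℝ → ℝ) → ℝ) : Prop :=
  ∃ f : ℕ → ℕ, E = ∑ t ∈ Finset.range 75, f t * 2 ^ (56 * t) ∧
    ∑ t ∈ Finset.range 75, f t = K ∧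
    ∀ F, Sub F → X F ≤ ∑ t ∈ Finset.range 75, (f t : ℝ) * S6 F (rc t)

/-- sum over all pairs of permutations -/
noncomputable def Y2 (F : ℝ → ℝ → ℝ → ℝ) (x0 x1 x2 z0 z1 z2 : ℝ) : ℝ :=
  six (fun x y z => six (fun u v w => F (x * u) (y * v) (z * w)) z0 z1 z2) x0 x1 x2

noncomputable def XA (p q : ℕ) (F : ℝ → ℝ → ℝ → ℝ) : ℝ :=
  Y2 F ((27 - p / 28 : ℕ) : ℝ) ((27 - p % 28 : ℕ) : ℝ) ((p / 28 + p % 28 : ℕ) : ℝ)
    ((27 - q / 28 : ℕ) : ℝ) ((27 - q % 28 : ℕ) : ℝ) ((q / 28 + q % 28 : ℕ) : ℝ)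

noncomputable def XB (p q : ℕ) (F : ℝ → ℝ → ℝ → ℝ) : ℝ :=
  Y2 F ((p / 28 : ℕ) : ℝ) ((p % 28 : ℕ) : ℝ) ((27 - p / 28 - p % 28 : ℕ) : ℝ)
    ((q / 28 : ℕ) : ℝ) ((q % 28 : ℕ) : ℝ) ((27 - q / 28 - q % 28 : ℕ) : ℝ)

/-- bilinear value of the packed state `C` -/
noncomputable def Q2 (X : ℕ → ℕ → (ℝ → ℝ → ℝ → ℝ) → ℝ) (C : ℕ) (F : ℝ → ℝ → ℝ → ℝ) : ℝ :=
  ∑ s ∈ Finset.range 75, ∑ t ∈ Finset.range 75, (dg C s : ℝ) * (dg C t : ℝ) * X (rc s) (rc t) F

/-- the functional `L` is dominated by the packed state `C` -/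
def Dom (L : (ℝ → ℝ → ℝ → ℝ) → ℝ) (C : ℕ) : Prop := ∀ F, Sub F → 54000000 * L F ≤ Q1 C F

end Vale.Agent.P154.Grid
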