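import Vale.Agent.P154.Merge
import Vale.Agent.P154.Forms3

/-! Moment identities for the merge of two messages. -/

namespace Vale.Agent.P154

set_option linter.unusedSimpArgs false

noncomputable def rr (x0 x1 y0 y1 : ℝ) : ℝ := (x0 * y0 + x1 * y1 + (x0 + x1) * (y0 + y1)) / 3
noncomputable def aa (x0 x1 y0 y1 : ℝ) : ℝ :=
  (x0 * x0 * y0 + x1 * x1 * y1 - (x0 + x1) * (x0 + x1) * (y0 + y1)) / 3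
noncomputable def bb (x0 x1 y0 y1 : ℝ) : ℝ :=
  (x0 * y0 * y0 + x1 * y1 * y1 - (x0 + x1) * ((y0 + y1) * (y0 + y1))) / 3
noncomputable def Pc (x0 x1 : ℝ) : ℝ := (x0 * x0 + x0 * x1 + x1 * x1) / 3
noncomputable def Cc (x0 x1 : ℝ) : ℝ := -(x0 * x1 * (x0 + x1)) / 2

def s6 (F : ℝ → ℝ → ℝ) (y0 y1 : ℝ) : ℝ :=
  F y0 y1 + F y1 (-y0 - y1) + F (-y0 - y1) y0 + F y0 (-y0 - y1) + F (-y0 - y1) y1 + F y1 y0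

theorem s_r1 (x0 x1 y0 y1 : ℝ) :
    s6 (fun u v => (rr x0 x1 u v)) y0 y1
      = 6 * (0) := by
  simp only [s6, rr, aa, bb, Pc, Cc]; ring

theorem s_r2 (x0 x1 y0 y1 : ℝ) :
    s6 (fun u v => (rr x0 x1 u v) ^ 2) y0 y1
      = 6 * (2*(Pc x0 x1 * Pc y0 y1)) := by
  simp only [s6, rr, aa, bb, Pc, Cc]; ring

theorem s_r3 (x0 x1 y0 y1 : ℝ) :
    s6 (fun u v => (rr x0 x1 u v) ^ 3) y0 y1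
      = 6 * (2*(Cc x0 x1 * Cc y0 y1)) := by
  simp only [s6, rr, aa, bb, Pc, Cc]; ring

theorem s_r4 (x0 x1 y0 y1 : ℝ) :
    s6 (fun u v => (rr x0 x1 u v) ^ 4) y0 y1
      = 6 * (6*(Pc x0 x1 * Pc y0 y1)^2) := by
  simp only [s6, rr, aa, bb, Pc, Cc]; ring

theorem s_r5 (x0 x1 y0 y1 : ℝ) :
    s6 (fun u v => (rr x0 x1 u v) ^ 5) y0 y1
      = 6 * (10*(Pc x0 x1 * Pc y0 y1)*(Cc x0 x1 * Cc y0 y1)) := by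
  simp only [s6, rr, aa, bb, Pc, Cc]; ring

theorem s_r6 (x0 x1 y0 y1 : ℝ) :
    s6 (fun u v => (rr x0 x1 u v) ^ 6) y0 y1
      = 6 * (18*(Pc x0 x1 * Pc y0 y1)^3+4*((Cc x0 x1 * Cc y0 y1)^2+((Pc x0 x1 ^ 3 - Cc x0 x1 ^ 2) * (Pc y0 y1 ^ 3 - Cc y0 y1 ^ 2)))) := by
  simp only [s6, rr, aa, bb, Pc, Cc]; ring

theorem s_a0 (x0 x1 y0 y1 : ℝ) :
    s6 (fun u v => (aa x0 x1 u v)) y0 y1
      = 6 * (0) := by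
  simp only [s6, rr, aa, bb, Pc, Cc]; ring

theorem s_a1 (x0 x1 y0 y1 : ℝ) :
    s6 (fun u v => (aa x0 x1 u v) * (rr x0 x1 u v)) y0 y1
      = 6 * (2*Pc y0 y1*Cc x0 x1) := by
  simp only [s6, rr, aa, bb, Pc, Cc]; ring

theorem s_a2 (x0 x1 y0 y1 : ℝ) :
    s6 (fun u v => (aa x0 x1 u v) * (rr x0 x1 u v) ^ 2) y0 y1
      = 6 * (2*Pc x0 x1*Pc x0 x1*Cc y0 y1) := by
  simp only [s6, rr, aa, bb, Pc, Cc]; ring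

theorem s_a3 (x0 x1 y0 y1 : ℝ) :
    s6 (fun u v => (aa x0 x1 u v) * (rr x0 x1 u v) ^ 3) y0 y1
      = 6 * (6*(Pc x0 x1 * Pc y0 y1)*Pc y0 y1*Cc x0 x1) := by
  simp only [s6, rr, aa, bb, Pc, Cc]; ring

theorem s_a4 (x0 x1 y0 y1 : ℝ) :
    s6 (fun u v => (aa x0 x1 u v) * (rr x0 x1 u v) ^ 4) y0 y1
      = 6 * (4*(Cc x0 x1 * Cc y0 y1)*Pc y0 y1*Cc x0 x1+6*(Pc x0 x1 * Pc y0 y1)*Pc x0 x1*Pc x0 x1*Cc y0 y1) := by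
  simp only [s6, rr, aa, bb, Pc, Cc]; ring

theorem s_a5 (x0 x1 y0 y1 : ℝ) :
    s6 (fun u v => (aa x0 x1 u v) * (rr x0 x1 u v) ^ 5) y0 y1
      = 6 * (18*(Pc x0 x1 * Pc y0 y1)*(Pc x0 x1 * Pc y0 y1)*Pc y0 y1*Cc x0 x1+4*(Cc x0 x1 * Cc y0 y1)*Pc x0 x1*Pc x0 x1*Cc y0 y1) := by
  simp only [s6, rr, aa, bb, Pc, Cc]; ring

theorem s_b0 (x0 x1 y0 y1 : ℝ) :
    s6 (fun u v => (bb x0 x1 u v)) y0 y1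
      = 6 * (0) := by
  simp only [s6, rr, aa, bb, Pc, Cc]; ring

theorem s_b1 (x0 x1 y0 y1 : ℝ) :
    s6 (fun u v => (bb x0 x1 u v) * (rr x0 x1 u v)) y0 y1
      = 6 * (2*Pc x0 x1*Cc y0 y1) := by
  simp only [s6, rr, aa, bb, Pc, Cc]; ring

theorem s_b2 (x0 x1 y0 y1 : ℝ) :
    s6 (fun u v => (bb x0 x1 u v) * (rr x0 x1 u v) ^ 2) y0 y1
      = 6 * (2*Pc y0 y1*Pc y0 y1*Cc x0 x1) := by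
  simp only [s6, rr, aa, bb, Pc, Cc]; ring

theorem s_b3 (x0 x1 y0 y1 : ℝ) :
    s6 (fun u v => (bb x0 x1 u v) * (rr x0 x1 u v) ^ 3) y0 y1
      = 6 * (6*(Pc x0 x1 * Pc y0 y1)*Pc x0 x1*Cc y0 y1) := by
  simp only [s6, rr, aa, bb, Pc, Cc]; ring

theorem s_b4 (x0 x1 y0 y1 : ℝ) :
    s6 (fun u v => (bb x0 x1 u v) * (rr x0 x1 u v) ^ 4) y0 y1
      = 6 * (4*(Cc x0 x1 * Cc y0 y1)*Pc x0 x1*Cc y0 y1+6*(Pc x0 x1 * Pc y0 y1)*Pc y0 y1*Pc y0 y1*Cc x0 x1) := by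
  simp only [s6, rr, aa, bb, Pc, Cc]; ring

theorem s_b5 (x0 x1 y0 y1 : ℝ) :
    s6 (fun u v => (bb x0 x1 u v) * (rr x0 x1 u v) ^ 5) y0 y1
      = 6 * (18*(Pc x0 x1 * Pc y0 y1)*(Pc x0 x1 * Pc y0 y1)*Pc x0 x1*Cc y0 y1+4*(Cc x0 x1 * Cc y0 y1)*Pc y0 y1*Pc y0 y1*Cc x0 x1) := by
  simp only [s6, rr, aa, bb, Pc, Cc]; ring

theorem s_aa0 (x0 x1 y0 y1 : ℝ) :
    s6 (fun u v => (aa x0 x1 u v) ^ 2) y0 y1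
      = 6 * (2*Pc x0 x1*Pc x0 x1*Pc y0 y1) := by
  simp only [s6, rr, aa, bb, Pc, Cc]; ring

theorem s_aa1 (x0 x1 y0 y1 : ℝ) :
    s6 (fun u v => (aa x0 x1 u v) ^ 2 * (rr x0 x1 u v)) y0 y1
      = 6 * (2*Pc x0 x1*(Cc x0 x1 * Cc y0 y1)) := by
  simp only [s6, rr, aa, bb, Pc, Cc]; ring

theorem s_aa2 (x0 x1 y0 y1 : ℝ) :
    s6 (fun u v => (aa x0 x1 u v) ^ 2 * (rr x0 x1 u v) ^ 2) y0 y1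
      = 6 * (4*Pc y0 y1*Pc y0 y1*Cc x0 x1*Cc x0 x1+2*Pc x0 x1^3*Pc y0 y1*Pc y0 y1) := by
  simp only [s6, rr, aa, bb, Pc, Cc]; ring

theorem s_aa3 (x0 x1 y0 y1 : ℝ) :
    s6 (fun u v => (aa x0 x1 u v) ^ 2 * (rr x0 x1 u v) ^ 3) y0 y1
      = 6 * (10*Pc x0 x1*Pc x0 x1*Pc y0 y1*(Cc x0 x1 * Cc y0 y1)) := by
  simp only [s6, rr, aa, bb, Pc, Cc]; ring

theorem s_aa4 (x0 x1 y0 y1 : ℝ) :
    s6 (fun u v => (aa x0 x1 u v) ^ 2 * (rr x0 x1 u v) ^ 4) y0 y1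
      = 6 * (16*(Pc x0 x1 * Pc y0 y1)*Pc y0 y1*Pc y0 y1*Cc x0 x1*Cc x0 x1+4*Pc x0 x1^4*Cc y0 y1*Cc y0 y1+2*Pc x0 x1^4*Pc y0 y1^3) := by
  simp only [s6, rr, aa, bb, Pc, Cc]; ring

theorem s_bb0 (x0 x1 y0 y1 : ℝ) :
    s6 (fun u v => (bb x0 x1 u v) ^ 2) y0 y1
      = 6 * (2*Pc y0 y1*Pc y0 y1*Pc x0 x1) := by
  simp only [s6, rr, aa, bb, Pc, Cc]; ring

theorem s_bb1 (x0 x1 y0 y1 : ℝ) :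
    s6 (fun u v => (bb x0 x1 u v) ^ 2 * (rr x0 x1 u v)) y0 y1
      = 6 * (2*Pc y0 y1*(Cc x0 x1 * Cc y0 y1)) := by
  simp only [s6, rr, aa, bb, Pc, Cc]; ring

theorem s_bb2 (x0 x1 y0 y1 : ℝ) :
    s6 (fun u v => (bb x0 x1 u v) ^ 2 * (rr x0 x1 u v) ^ 2) y0 y1
      = 6 * (4*Pc x0 x1*Pc x0 x1*Cc y0 y1*Cc y0 y1+2*Pc y0 y1^3*Pc x0 x1*Pc x0 x1) := by
  simp only [s6, rr, aa, bb, Pc, Cc]; ring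

theorem s_bb3 (x0 x1 y0 y1 : ℝ) :
    s6 (fun u v => (bb x0 x1 u v) ^ 2 * (rr x0 x1 u v) ^ 3) y0 y1
      = 6 * (10*Pc y0 y1*Pc y0 y1*Pc x0 x1*(Cc x0 x1 * Cc y0 y1)) := by
  simp only [s6, rr, aa, bb, Pc, Cc]; ring

theorem s_bb4 (x0 x1 y0 y1 : ℝ) :
    s6 (fun u v => (bb x0 x1 u v) ^ 2 * (rr x0 x1 u v) ^ 4) y0 y1
      = 6 * (16*(Pc x0 x1 * Pc y0 y1)*Pc x0 x1*Pc x0 x1*Cc y0 y1*Cc y0 y1+4*Pc y0 y1^4*Cc x0 x1*Cc x0 x1+2*Pc y0 y1^4*Pc x0 x1^3) := by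
  simp only [s6, rr, aa, bb, Pc, Cc]; ring

theorem s_ab0 (x0 x1 y0 y1 : ℝ) :
    s6 (fun u v => (aa x0 x1 u v) * (bb x0 x1 u v)) y0 y1
      = 6 * (2*(Cc x0 x1 * Cc y0 y1)) := by
  simp only [s6, rr, aa, bb, Pc, Cc]; ring

theorem s_ab1 (x0 x1 y0 y1 : ℝ) :
    s6 (fun u v => (aa x0 x1 u v) * (bb x0 x1 u v) * (rr x0 x1 u v)) y0 y1
      = 6 * (2*(Pc x0 x1 * Pc y0 y1)*(Pc x0 x1 * Pc y0 y1)) := by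
  simp only [s6, rr, aa, bb, Pc, Cc]; ring

theorem s_ab2 (x0 x1 y0 y1 : ℝ) :
    s6 (fun u v => (aa x0 x1 u v) * (bb x0 x1 u v) * (rr x0 x1 u v) ^ 2) y0 y1
      = 6 * (6*(Pc x0 x1 * Pc y0 y1)*(Cc x0 x1 * Cc y0 y1)) := by
  simp only [s6, rr, aa, bb, Pc, Cc]; ring

theorem s_ab3 (x0 x1 y0 y1 : ℝ) :
    s6 (fun u v => (aa x0 x1 u v) * (bb x0 x1 u v) * (rr x0 x1 u v) ^ 3) y0 y1
      = 6 * (6*(Pc x0 x1 * Pc y0 y1)^3+4*((Cc x0 x1 * Cc y0 y1)^2-((Pc x0 x1 ^ 3 - Cc x0 x1 ^ 2) * (Pc y0 y1 ^ 3 - Cc y0 y1 ^ 2)))) := by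
  simp only [s6, rr, aa, bb, Pc, Cc]; ring

theorem s_ab4 (x0 x1 y0 y1 : ℝ) :
    s6 (fun u v => (aa x0 x1 u v) * (bb x0 x1 u v) * (rr x0 x1 u v) ^ 4) y0 y1
      = 6 * (22*(Pc x0 x1 * Pc y0 y1)*(Pc x0 x1 * Pc y0 y1)*(Cc x0 x1 * Cc y0 y1)) := by
  simp only [s6, rr, aa, bb, Pc, Cc]; ring

end Vale.Agent.P154
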